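import Vale.Agent.Lib.P173.Defs

/-!
# P173: group presentations, the Cayley complex and asphericity

A presentation `P = ⟨S | r⟩` is a set `S` of generators and a family of relators, which are words
in the letters `s`, `s⁻¹` with `s` in `S`.  The Cayley complex of `P` is the universal cover of
the standard 2-complex (one vertex, one edge for every generator, one face for every relator)
of `P`; `P` is aspherical when this 2-complex has vanishing second homology (equivalently,
when the standard 2-complex has vanishing second homotopy group, that is, when it is a
classifying space of the group presented by `P`).
-/

namespace Vale.Agent.P173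

/-- A presentation: a set `S` of generators, and a family of relators indexed by `R`.
The relators are words; the letter `(s, true)` is the generator `s`, the letter `(s, false)` is
its inverse. -/
structure Presentation where
  S : Type
  R : Type
  rel : R → List (S × Bool)

namespace Presentation

variable (P : Presentation)

/-- The group presented by `P`: the quotient of the free group on `S` by the normal closure of
the relators. -/
abbrev Grp : Type := PresentedGroup (Set.range fun ρ : P.R => FreeGroup.mk (P.rel ρ))

/-- The generator `s`, as an element of the group. -/
def gen (s : P.S) : P.Grp := PresentedGroup.of s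

/-- The edge path in the Cayley graph which starts at the vertex `g` and is labelled by the
given word: the edge `(h, s)` of the Cayley graph goes from `h` to `h * s`. -/
def walk : P.Grp → List (P.S × Bool) → List ((P.Grp × P.S) × Bool)
  | _, [] => []
  | g, (s, true) :: w => ((g, s), true) :: walk (g * P.gen s) w
  | g, (s, false) :: w => ((g * (P.gen s)⁻¹, s), false) :: walk (g * (P.gen s)⁻¹) w

/-- The element of the group represented by a word. -/
def val (w : List (P.S × Bool)) : P.Grp :=
  PresentedGroup.mk (Set.range fun ρ : P.R => FreeGroup.mk (P.rel ρ)) (FreeGroup.mk w)

theorem val_nil : P.val [] = 1 := rfl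

theorem val_append (w w' : List (P.S × Bool)) : P.val (w ++ w') = P.val w * P.val w' := by
  unfold val
  rw [← FreeGroup.mul_mk, map_mul]

theorem val_true (s : P.S) : P.val [(s, true)] = P.gen s := rfl

theorem val_false (s : P.S) : P.val [(s, false)] = (P.gen s)⁻¹ := by
  unfold val gen PresentedGroup.of FreeGroup.of
  rw [← map_inv]
  rfl

theorem val_cons_true (s : P.S) (w : List (P.S × Bool)) :
    P.val ((s, true) :: w) = P.gen s * P.val w := by
  have h := P.val_append [(s, true)] w
  rw [val_true] at h
  exact h

theorem val_cons_false (s : P.S) (w : List (P.S × Bool)) :
    P.val ((s, false) :: w) = (P.gen s)⁻¹ * P.val w := by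
  have h := P.val_append [(s, false)] w
  rw [val_false] at h
  exact h

theorem val_rel (ρ : P.R) : P.val (P.rel ρ) = 1 :=
  PresentedGroup.one_of_mem (Set.mem_range_self ρ)

/-- the walk with label `w` from `g` ends at `g * w` -/
theorem isPath_walk (w : List (P.S × Bool)) (g : P.Grp) :
    IsPath (fun e : P.Grp × P.S => e.1) (fun e : P.Grp × P.S => e.1 * P.gen e.2) g (P.walk g w)
      (g * P.val w) := by
  induction w generalizing g with
  | nil =>
    change g = g * P.val []
    rw [val_nil, mul_one]
  | cons a w ih =>
    obtain ⟨s, b⟩ := a
    cases b
    · refine ⟨?_, ?_⟩
      · change g * (P.gen s)⁻¹ * P.gen s = g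
        rw [inv_mul_cancel_right]
      · have h := ih (g * (P.gen s)⁻¹)
        rw [val_cons_false, ← mul_assoc]
        exact h
    · refine ⟨rfl, ?_⟩
      have h := ih (g * P.gen s)
      rw [val_cons_true, ← mul_assoc]
      exact h

/-- The Cayley complex of the presentation `P`: the vertices are the elements of the group, the
edge `(g, s)` goes from `g` to `g * s`, and the face `(g, ρ)` is attached along the closed
edge path which starts at `g` and is labelled by the relator `ρ`.  It is the universal cover of
the standard 2-complex of `P`. -/
def cayleyComplex : TwoComplex where
  V := P.Grp
  E := P.Grp × P.S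
  F := P.Grp × P.R
  src e := e.1
  tgt e := e.1 * P.gen e.2
  base f := f.1
  bd f := P.walk f.1 (P.rel f.2)
  closed f := by
    have h := P.isPath_walk (P.rel f.2) f.1
    rw [val_rel, mul_one] at h
    exact h

/-- The presentation is aspherical: the second homology group of its Cayley complex vanishes.
(The Cayley complex is connected and simply connected, so by the theorem of Hurewicz this says
that its second homotopy group, which is the second homotopy group of the standard 2-complex of
the presentation, vanishes.) -/
def IsAspherical : Prop := P.cayleyComplex.H₂Zero

end Presentation

end Vale.Agent.P173
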