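import Vale.Agent.Lib.P173.Pres.Defs

/-!
# P173: the Cayley complex is connected and simply connected and has a free action of the group
-/

namespace Vale.Agent.P173

namespace TwoComplex

variable {X : TwoComplex}

theorem pres_isPath_append {x : X.V} {p q : List (X.E × Bool)} {z : X.V} :
    X.Path x (p ++ q) z ↔ ∃ y, X.Path x p y ∧ X.Path y q z := by
  induction p generalizing x with
  | nil =>
    constructor
    · intro h
      exact ⟨x, rfl, h⟩
    · rintro ⟨y, h1, h2⟩
      have h1' : x = y := h1
      subst h1'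
      exact h2
  | cons a p ih =>
    obtain ⟨e, b⟩ := a
    cases b
    · constructor
      · rintro ⟨h1, h2⟩
        obtain ⟨y, h3, h4⟩ := ih.1 h2
        exact ⟨y, ⟨h1, h3⟩, h4⟩
      · rintro ⟨y, ⟨h1, h2⟩, h3⟩
        exact ⟨h1, ih.2 ⟨y, h2, h3⟩⟩
    · constructor
      · rintro ⟨h1, h2⟩
        obtain ⟨y, h3, h4⟩ := ih.1 h2
        exact ⟨y, ⟨h1, h3⟩, h4⟩
      · rintro ⟨y, ⟨h1, h2⟩, h3⟩
        exact ⟨h1, ih.2 ⟨y, h2, h3⟩⟩

theorem pres_trans {x y : X.V} {p q r : List (X.E × Bool)} (h : X.Homotopic x y p q)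
    (h' : X.Homotopic x y q r) : X.Homotopic x y p r := Relation.EqvGen.trans _ _ _ h h'

theorem pres_symm {x y : X.V} {p q : List (X.E × Bool)} (h : X.Homotopic x y p q) :
    X.Homotopic x y q p := Relation.EqvGen.symm _ _ h

theorem pres_refl {x y : X.V} (p : List (X.E × Bool)) : X.Homotopic x y p p :=
  Relation.EqvGen.refl _

end TwoComplex

namespace Presentation

variable (P : Presentation)

/-- homotopy in the Cayley complex -/
def PHom (g h : P.Grp) (p q : List ((P.Grp × P.S) × Bool)) : Prop :=
  TwoComplex.Homotopic P.cayleyComplex g h p q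

/-- edge paths in the Cayley complex -/
def PPath (g : P.Grp) (p : List ((P.Grp × P.S) × Bool)) (h : P.Grp) : Prop :=
  IsPath (fun e : P.Grp × P.S => e.1) (fun e : P.Grp × P.S => e.1 * P.gen e.2) g p h

theorem phom_trans {x y : P.Grp} {p q r : List ((P.Grp × P.S) × Bool)} (h : P.PHom x y p q)
    (h' : P.PHom x y q r) : P.PHom x y p r := Relation.EqvGen.trans _ _ _ h h'

theorem phom_symm {x y : P.Grp} {p q : List ((P.Grp × P.S) × Bool)} (h : P.PHom x y p q) :
    P.PHom x y q p := Relation.EqvGen.symm _ _ h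

theorem phom_refl {x y : P.Grp} (p : List ((P.Grp × P.S) × Bool)) : P.PHom x y p p :=
  Relation.EqvGen.refl _

theorem walk_append (g : P.Grp) (w w' : List (P.S × Bool)) :
    P.walk g (w ++ w') = P.walk g w ++ P.walk (g * P.val w) w' := by
  induction w generalizing g with
  | nil =>
    rw [val_nil, mul_one]
    rfl
  | cons a w ih =>
    obtain ⟨s, b⟩ := a
    cases b
    · rw [val_cons_false, ← mul_assoc]
      change (_ :: P.walk (g * (P.gen s)⁻¹) (w ++ w')) = _
      rw [ih]
      rfl
    · rw [val_cons_true, ← mul_assoc]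
      change (_ :: P.walk (g * P.gen s) (w ++ w')) = _
      rw [ih]
      rfl

theorem path_walk (g : P.Grp) (w : List (P.S × Bool)) :
    P.PPath g (P.walk g w) (g * P.val w) := P.isPath_walk w g

/-- every edge path is the walk of its label -/
theorem path_eq_walk {g h : P.Grp} {p : List ((P.Grp × P.S) × Bool)}
    (hp : P.PPath g p h) :
    p = P.walk g (p.map fun a => (a.1.2, a.2)) := by
  induction p generalizing g with
  | nil => rfl
  | cons a p ih =>
    obtain ⟨⟨k, s⟩, b⟩ := a
    cases b
    · obtain ⟨h1, h2⟩ := hp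
      have h1' : k * P.gen s = g := h1
      have hk : g * (P.gen s)⁻¹ = k := by rw [← h1', mul_inv_cancel_right]
      have h3 : p = P.walk k (p.map fun a => (a.1.2, a.2)) := ih h2
      change ((k, s), false) :: p = ((g * (P.gen s)⁻¹, s), false) ::
        P.walk (g * (P.gen s)⁻¹) (p.map fun a => (a.1.2, a.2))
      rw [hk, ← h3]
    · obtain ⟨h1, h2⟩ := hp
      have h1' : k = g := h1
      subst h1'
      have h3 : p = P.walk (k * P.gen s) (p.map fun a => (a.1.2, a.2)) := ih h2
      change ((k, s), true) :: p = ((k, s), true) ::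
        P.walk (k * P.gen s) (p.map fun a => (a.1.2, a.2))
      rw [← h3]

/-- elementary reductions of words give homotopies -/
theorem hom_of_step {w w' : List (P.S × Bool)} (h : FreeGroup.Red.Step w w') (g : P.Grp) :
    P.PHom g (g * P.val w) (P.walk g w) (P.walk g w') := by
  have hv : P.val w = P.val w' := by
    unfold val
    rw [FreeGroup.Red.exact.2 ⟨w', Relation.ReflTransGen.single h, Relation.ReflTransGen.refl⟩]
  refine Relation.EqvGen.rel _ _ ⟨?_, P.path_walk g w, hv ▸ P.path_walk g w'⟩
  cases h with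
  | @not L₁ L₂ s b =>
    rw [walk_append, walk_append]
    cases b
    · have h1 : P.walk (g * P.val L₁) ((s, false) :: (s, !false) :: L₂) =
          ((g * P.val L₁ * (P.gen s)⁻¹, s), false) ::
            ((g * P.val L₁ * (P.gen s)⁻¹, s), !false) :: P.walk (g * P.val L₁) L₂ := by
        change ((g * P.val L₁ * (P.gen s)⁻¹, s), false) ::
            ((g * P.val L₁ * (P.gen s)⁻¹, s), true) ::
              P.walk (g * P.val L₁ * (P.gen s)⁻¹ * P.gen s) L₂ = _
        rw [inv_mul_cancel_right]
        rfl
      rw [h1]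
      exact TwoComplex.Step.cancel _ _ _ _
    · have h1 : P.walk (g * P.val L₁) ((s, true) :: (s, !true) :: L₂) =
          ((g * P.val L₁, s), true) ::
            ((g * P.val L₁, s), !true) :: P.walk (g * P.val L₁) L₂ := by
        change ((g * P.val L₁, s), true) ::
            ((g * P.val L₁ * P.gen s * (P.gen s)⁻¹, s), false) ::
              P.walk (g * P.val L₁ * P.gen s * (P.gen s)⁻¹) L₂ = _
        rw [mul_inv_cancel_right]
        rfl
      rw [h1]
      exact TwoComplex.Step.cancel _ _ _ _

theorem hom_of_red {w w' : List (P.S × Bool)} (h : FreeGroup.Red w w') (g : P.Grp) :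
    P.PHom g (g * P.val w) (P.walk g w) (P.walk g w') := by
  induction h with
  | refl => exact P.phom_refl _
  | @tail b c h1 h2 ih =>
    have hv : P.val w = P.val b := by
      unfold val
      rw [FreeGroup.Red.exact.2 ⟨b, h1, Relation.ReflTransGen.refl⟩]
    refine P.phom_trans ih ?_
    rw [hv]
    exact P.hom_of_step h2 g

/-- words with the same value in the free group give homotopic walks -/
theorem hom_of_mk_eq {w w' : List (P.S × Bool)} (h : FreeGroup.mk w = FreeGroup.mk w')
    (g : P.Grp) :
    P.PHom g (g * P.val w) (P.walk g w) (P.walk g w') := by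
  obtain ⟨v, h1, h2⟩ := FreeGroup.Red.exact.1 h
  have hv : P.val w' = P.val w := by
    unfold val
    rw [h]
  have h3 := P.hom_of_red h2 g
  rw [hv] at h3
  exact P.phom_trans (P.hom_of_red h1 g) (P.phom_symm h3)

/-- homotopies may be inserted in a longer path -/
theorem hom_congr {X : TwoComplex} {x y z w : X.V} {l r p q : List (X.E × Bool)}
    (hl : X.Path z l x) (hr : X.Path y r w) (h : X.Homotopic x y p q) :
    X.Homotopic z w (l ++ p ++ r) (l ++ q ++ r) := by
  induction h with
  | rel p q h =>
    obtain ⟨h1, h2, h3⟩ := h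
    refine Relation.EqvGen.rel _ _ ⟨?_, ?_, ?_⟩
    · cases h1 with
      | cancel l' r' e b =>
        have e1 : l ++ (l' ++ (e, b) :: (e, !b) :: r') ++ r =
            (l ++ l') ++ (e, b) :: (e, !b) :: (r' ++ r) := by simp
        have e2 : l ++ (l' ++ r') ++ r = (l ++ l') ++ (r' ++ r) := by simp
        rw [e1, e2]
        exact TwoComplex.Step.cancel _ _ _ _
      | face l' r' f =>
        have e1 : l ++ (l' ++ X.bd f ++ r') ++ r = (l ++ l') ++ X.bd f ++ (r' ++ r) := by simp
        have e2 : l ++ (l' ++ r') ++ r = (l ++ l') ++ (r' ++ r) := by simp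
        rw [e1, e2]
        exact TwoComplex.Step.face _ _ _
    · exact TwoComplex.pres_isPath_append.2
        ⟨y, TwoComplex.pres_isPath_append.2 ⟨x, hl, h2⟩, hr⟩
    · exact TwoComplex.pres_isPath_append.2
        ⟨y, TwoComplex.pres_isPath_append.2 ⟨x, hl, h3⟩, hr⟩
  | refl p => exact TwoComplex.pres_refl _
  | symm p q _ ih => exact TwoComplex.pres_symm ih
  | trans p q s _ _ ih1 ih2 => exact TwoComplex.pres_trans ih1 ih2

theorem phom_congr {x y z w : P.Grp} {l r p q : List ((P.Grp × P.S) × Bool)}
    (hl : P.PPath z l x) (hr : P.PPath y r w) (h : P.PHom x y p q) :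
    P.PHom z w (l ++ p ++ r) (l ++ q ++ r) :=
  hom_congr (X := P.cayleyComplex) hl hr h

/-- the walk along a relator is null homotopic -/
theorem hom_rel (ρ : P.R) (g : P.Grp) :
    P.PHom g g (P.walk g (P.rel ρ)) [] := by
  have h := P.path_walk g (P.rel ρ)
  rw [val_rel, mul_one] at h
  refine Relation.EqvGen.rel _ _ ⟨?_, h, rfl⟩
  have h1 := TwoComplex.Step.face (X := P.cayleyComplex) [] [] (g, ρ)
  rw [List.nil_append, List.append_nil] at h1
  exact h1

/-- a word whose value in the free group is in the normal closure of the relators -/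
theorem hom_of_mem {u : FreeGroup P.S}
    (hu : u ∈ Subgroup.normalClosure (Set.range fun ρ : P.R => FreeGroup.mk (P.rel ρ))) :
    ∀ (w : List (P.S × Bool)), FreeGroup.mk w = u → ∀ g : P.Grp,
      P.PHom g g (P.walk g w) [] := by
  have hval : ∀ {u : FreeGroup P.S},
      u ∈ Subgroup.normalClosure (Set.range fun ρ : P.R => FreeGroup.mk (P.rel ρ)) →
      ∀ w, FreeGroup.mk w = u → P.val w = 1 := by
    intro u hu w hw
    exact PresentedGroup.mk_eq_one_iff.2 (hw ▸ hu)
  -- it suffices to treat one word for every element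
  have hone : ∀ {u : FreeGroup P.S},
      u ∈ Subgroup.normalClosure (Set.range fun ρ : P.R => FreeGroup.mk (P.rel ρ)) →
      ∀ w₀, FreeGroup.mk w₀ = u → (∀ g : P.Grp,
        P.PHom g g (P.walk g w₀) []) → ∀ w, FreeGroup.mk w = u → ∀ g : P.Grp,
        P.PHom g g (P.walk g w) [] := by
    intro u hu w₀ hw₀ h w hw g
    have h1 := P.hom_of_mk_eq (hw.trans hw₀.symm) g
    rw [hval hu w hw, mul_one] at h1
    exact P.phom_trans h1 (h g)
  have hu' := hu
  unfold Subgroup.normalClosure at hu'
  induction hu' using Subgroup.closure_induction with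
  | mem x hx =>
    rw [Group.mem_conjugatesOfSet_iff] at hx
    obtain ⟨y, ⟨ρ, rfl⟩, hc⟩ := hx
    obtain ⟨c, hc⟩ := isConj_iff.1 hc
    obtain ⟨v, rfl⟩ : ∃ v, FreeGroup.mk v = c := Quot.exists_rep c
    refine hone hu (v ++ P.rel ρ ++ FreeGroup.invRev v) ?_ ?_
    · rw [← hc, ← FreeGroup.mul_mk, ← FreeGroup.mul_mk, FreeGroup.inv_mk]
    · intro g
      rw [walk_append, walk_append, val_append, val_rel, mul_one]
      have h1 := P.hom_rel ρ (g * P.val v)
      have hinv : P.val (FreeGroup.invRev v) = (P.val v)⁻¹ := by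
        unfold val
        rw [← FreeGroup.inv_mk, map_inv]
      have hr := P.path_walk (g * P.val v) (FreeGroup.invRev v)
      rw [hinv, mul_inv_cancel_right] at hr
      have h2 := P.phom_congr (P.path_walk g v) hr h1
      rw [List.append_nil] at h2
      refine P.phom_trans h2 ?_
      rw [← walk_append]
      have h3 : FreeGroup.mk (v ++ FreeGroup.invRev v) = FreeGroup.mk ([] : List (P.S × Bool)) := by
        rw [← FreeGroup.mul_mk, ← FreeGroup.inv_mk, mul_inv_cancel]
        rfl
      have h4 := P.hom_of_mk_eq h3 g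
      have h5 : P.val (v ++ FreeGroup.invRev v) = 1 := by
        rw [val_append, hinv, mul_inv_cancel]
      rw [h5, mul_one] at h4
      exact h4
  | one =>
    exact hone hu [] rfl fun g => P.phom_refl _
  | mul x y hx hy ihx ihy =>
    obtain ⟨v, rfl⟩ : ∃ v, FreeGroup.mk v = x := Quot.exists_rep x
    obtain ⟨v', rfl⟩ : ∃ v, FreeGroup.mk v = y := Quot.exists_rep y
    refine hone hu (v ++ v') (FreeGroup.mul_mk).symm fun g => ?_
    rw [walk_append, hval hx v rfl, mul_one]
    have h1 := ihx hx v rfl g
    have hr := P.path_walk g v'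
    rw [hval hy v' rfl, mul_one] at hr
    have h2 := P.phom_congr (z := g) (l := []) rfl hr h1
    rw [List.nil_append, List.nil_append, List.nil_append] at h2
    exact P.phom_trans h2 (ihy hy v' rfl g)
  | inv x hx ihx =>
    obtain ⟨v, rfl⟩ : ∃ v, FreeGroup.mk v = x := Quot.exists_rep x
    refine hone hu (FreeGroup.invRev v) (FreeGroup.inv_mk).symm fun g => ?_
    have hinv : P.val (FreeGroup.invRev v) = 1 := by
      unfold val
      rw [← FreeGroup.inv_mk, map_inv]
      change (P.val v)⁻¹ = 1
      rw [hval hx v rfl, inv_one]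
    have h1 := ihx hx v rfl g
    have hl := P.path_walk g (FreeGroup.invRev v)
    rw [hinv, mul_one] at hl
    have h2 := P.phom_congr (w := g) (r := []) hl rfl h1
    rw [List.append_nil, List.append_nil, List.append_nil] at h2
    refine P.phom_trans (P.phom_symm h2) ?_
    have h3 : FreeGroup.mk (FreeGroup.invRev v ++ v) = FreeGroup.mk ([] : List (P.S × Bool)) := by
      rw [← FreeGroup.mul_mk, ← FreeGroup.inv_mk, inv_mul_cancel]
      rfl
    have h4 := P.hom_of_mk_eq h3 g
    rw [walk_append, hinv, val_append, hinv, hval hx v rfl, mul_one, mul_one] at h4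
    exact h4

theorem isConn : P.cayleyComplex.IsConn := by
  refine ⟨⟨(1 : P.Grp)⟩, fun (x y : P.Grp) => ?_⟩
  obtain ⟨u, hu⟩ := PresentedGroup.mk_surjective (Set.range fun ρ : P.R => FreeGroup.mk (P.rel ρ))
    (x⁻¹ * y)
  obtain ⟨w, rfl⟩ : ∃ w, FreeGroup.mk w = u := Quot.exists_rep u
  refine ⟨P.walk x w, ?_⟩
  have h1 := P.path_walk x w
  have h2 : P.val w = x⁻¹ * y := hu
  rw [h2, mul_inv_cancel_left] at h1
  exact h1

/-- end points of a path are unique -/
theorem ppath_unique (q : List ((P.Grp × P.S) × Bool)) (a b c : P.Grp)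
    (h : P.PPath a q b) (h' : P.PPath a q c) : b = c := by
  induction q generalizing a with
  | nil => exact (h : a = b).symm.trans h'
  | cons e q ih =>
    obtain ⟨e, s⟩ := e
    cases s
    · exact ih _ h.2 h'.2
    · exact ih _ h.2 h'.2

theorem psimply (x : P.Grp) (p : List ((P.Grp × P.S) × Bool)) (hp : P.PPath x p x) :
    P.PHom x x p [] := by
  have h1 := P.path_eq_walk hp
  have h2 := P.path_walk x (p.map fun a => (a.1.2, a.2))
  rw [← h1] at h2
  have h5 : P.val (p.map fun a => (a.1.2, a.2)) = 1 :=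
    mul_eq_left.1 (P.ppath_unique p _ _ _ hp h2).symm
  rw [h1]
  exact P.hom_of_mem (PresentedGroup.mk_eq_one_iff.1 h5) _ rfl x

theorem isSimplyConn : P.cayleyComplex.IsSimplyConn := fun x p hp => P.psimply x p hp

theorem walk_mul (a : P.Grp) (w : List (P.S × Bool)) (x : P.Grp) : P.walk (a * x) w =
    (P.walk x w).map fun eb => ((a * eb.1.1, eb.1.2), eb.2) := by
  induction w generalizing x with
  | nil => rfl
  | cons c w ih =>
    obtain ⟨s, b⟩ := c
    cases b
    · change ((a * x * (P.gen s)⁻¹, s), false) :: P.walk (a * x * (P.gen s)⁻¹) w =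
        ((a * (x * (P.gen s)⁻¹), s), false) :: (P.walk (x * (P.gen s)⁻¹) w).map _
      rw [← ih, mul_assoc]
    · change ((a * x, s), true) :: P.walk (a * x * P.gen s) w =
        ((a * x, s), true) :: (P.walk (x * P.gen s) w).map _
      rw [← ih, mul_assoc]

/-- the action of the group on the Cayley complex by left multiplication, transported along an
isomorphism -/
def freeAct {G : Type} [Group G] (φ : G ≃* P.Grp) : FreeAct G P.cayleyComplex where
  aV g := fun x : P.Grp => φ g * x
  aE g := fun e : P.Grp × P.S => (φ g * e.1, e.2)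
  aF g := fun f : P.Grp × P.R => (φ g * f.1, f.2)
  oneV := fun x : P.Grp => by
    change φ 1 * x = x
    rw [map_one, one_mul]
  oneE := fun e : P.Grp × P.S => by
    change (φ 1 * e.1, e.2) = e
    rw [map_one, one_mul]
  oneF := fun f : P.Grp × P.R => by
    change (φ 1 * f.1, f.2) = f
    rw [map_one, one_mul]
  mulV g h := fun x : P.Grp => by
    change φ (g * h) * x = φ g * (φ h * x)
    rw [map_mul, mul_assoc]
  mulE g h := fun e : P.Grp × P.S => by
    change (φ (g * h) * e.1, e.2) = (φ g * (φ h * e.1), e.2)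
    rw [map_mul, mul_assoc]
  mulF g h := fun f : P.Grp × P.R => by
    change (φ (g * h) * f.1, f.2) = (φ g * (φ h * f.1), f.2)
    rw [map_mul, mul_assoc]
  src_eq g e := rfl
  tgt_eq g := fun e : P.Grp × P.S => by
    change φ g * e.1 * P.gen e.2 = φ g * (e.1 * P.gen e.2)
    rw [mul_assoc]
  base_eq g f := rfl
  bd_eq g := fun f : P.Grp × P.R => P.walk_mul (φ g) (P.rel f.2) f.1
  free g := fun (x : P.Grp) hx => by
    have h : φ g * x = x := hx
    rw [mul_eq_right] at h
    rw [← map_one φ] at h
    exact φ.injective h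

/-- a group with an aspherical presentation has geometric dimension at most two -/
theorem geomDimLETwo {G : Type} [Group G] (φ : G ≃* P.Grp) (h : P.IsAspherical) :
    GeomDimLETwo G :=
  ⟨P.cayleyComplex, ⟨P.freeAct φ⟩, P.isConn, P.isSimplyConn, h⟩

end Presentation

end Vale.Agent.P173
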