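import Vale.Agent.Lib.P173.Pres.Main

namespace Vale.Agent.P173

open Classical in
/-- class of an element of the kernel in the abelianized kernel (zero outside the kernel) -/
private noncomputable def relClass {S G : Type} [Group G] (φ : FreeGroup S →* G)
    (u : FreeGroup S) : Additive (Abelianization φ.ker) :=
  if h : u ∈ φ.ker then Additive.ofMul (Abelianization.of ⟨u, h⟩) else 0

private theorem relClass_eq {S G : Type} [Group G] (φ : FreeGroup S →* G) (u : φ.ker) :
    relClass φ u = Additive.ofMul (Abelianization.of u) := by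
  unfold relClass
  rw [dif_pos u.2]

private theorem relClass_mul {S G : Type} [Group G] (φ : FreeGroup S →* G) {u v : FreeGroup S}
    (hu : u ∈ φ.ker) (hv : v ∈ φ.ker) :
    relClass φ (u * v) = relClass φ u + relClass φ v := by
  have h := relClass_eq φ (⟨u, hu⟩ * ⟨v, hv⟩)
  rw [map_mul, ofMul_mul, ← relClass_eq φ ⟨u, hu⟩, ← relClass_eq φ ⟨v, hv⟩] at h
  exact h

private theorem relClass_one {S G : Type} [Group G] (φ : FreeGroup S →* G) :
    relClass φ 1 = 0 := by
  have h := relClass_eq φ 1
  rw [map_one, ofMul_one] at h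
  exact h

section

variable {S G : Type} [Group G] (φ : FreeGroup S →* G) (w : G → FreeGroup S)

/-- class of `w g * x * (w (g * φ x))⁻¹` -/
private noncomputable def loopClass (g : G) (x : FreeGroup S) :
    Additive (Abelianization φ.ker) := relClass φ (w g * x * (w (g * φ x))⁻¹)

private theorem loop_mem (hw : ∀ g, φ (w g) = g) (g : G) (x : FreeGroup S) :
    w g * x * (w (g * φ x))⁻¹ ∈ φ.ker := by
  rw [MonoidHom.mem_ker, map_mul, map_mul, map_inv, hw, hw, mul_inv_cancel]

private theorem loopClass_mul (hw : ∀ g, φ (w g) = g) (g : G) (x y : FreeGroup S) :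
    loopClass φ w g (x * y) = loopClass φ w g x + loopClass φ w (g * φ x) y := by
  unfold loopClass
  rw [← relClass_mul φ (loop_mem φ w hw g x) (loop_mem φ w hw (g * φ x) y), map_mul, ← mul_assoc g]
  congr 1
  group

private theorem loopClass_one (g : G) : loopClass φ w g 1 = 0 := by
  unfold loopClass
  rw [map_one, mul_one, mul_one, mul_inv_cancel, relClass_one]

end

namespace Presentation

variable (P : Presentation) {G : Type} [Group G] (φ : FreeGroup P.S →* G) (w : G → FreeGroup P.S)
  (e : P.Grp →* G)

/-- the additive map from the cellular 1-chains to the abelianized kernel -/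
private noncomputable def hMap : (P.Grp × P.S →₀ ℤ) →ₗ[ℤ] Additive (Abelianization φ.ker) :=
  Finsupp.linearCombination ℤ fun p : P.Grp × P.S => loopClass φ w (e p.1) (FreeGroup.of p.2)

private theorem hMap_single (k : P.Grp) (s : P.S) (n : ℤ) :
    P.hMap φ w e (Finsupp.single (k, s) n) = n • loopClass φ w (e k) (FreeGroup.of s) := by
  unfold hMap
  rw [Finsupp.linearCombination_single]

/-- the cellular chain of a path of the Cayley complex -/
private noncomputable def pchain (p : List ((P.Grp × P.S) × Bool)) : P.Grp × P.S →₀ ℤ :=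
  (p.map fun eb => Finsupp.single eb.1 (if eb.2 then (1 : ℤ) else -1)).sum

/-- the cellular boundary of a 2-chain of the Cayley complex -/
private noncomputable def pd2 (z : P.Grp × P.R →₀ ℤ) : P.Grp × P.S →₀ ℤ :=
  z.sum fun f n => n • P.pchain (P.walk f.1 (P.rel f.2))

private theorem hMap_walk (hw : ∀ g, φ (w g) = g)
    (he : ∀ s, e (P.gen s) = φ (FreeGroup.of s)) (L : List (P.S × Bool)) (k : P.Grp) :
    P.hMap φ w e (P.pchain (P.walk k L)) =
      loopClass φ w (e k) (FreeGroup.mk L) := by
  induction L generalizing k with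
  | nil =>
    have h1 : FreeGroup.mk ([] : List (P.S × Bool)) = 1 := rfl
    rw [h1, loopClass_one]
    exact map_zero _
  | cons a L ih =>
    obtain ⟨s, b⟩ := a
    cases b
    · have h1 : P.pchain (P.walk k ((s, false) :: L)) =
          Finsupp.single (k * (P.gen s)⁻¹, s) (-1 : ℤ) +
            P.pchain (P.walk (k * (P.gen s)⁻¹) L) := rfl
      have h2 : (FreeGroup.mk ((s, false) :: L)) = (FreeGroup.of s)⁻¹ * FreeGroup.mk L := rfl
      have h3 : e k = e (k * (P.gen s)⁻¹) * φ (FreeGroup.of s) := by
        rw [map_mul, map_inv, he, inv_mul_cancel_right]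
      have h4 : loopClass φ w (e (k * (P.gen s)⁻¹)) (FreeGroup.of s) +
          loopClass φ w (e k) (FreeGroup.of s)⁻¹ = 0 := by
        have h5 := loopClass_mul φ w hw (e (k * (P.gen s)⁻¹)) (FreeGroup.of s) (FreeGroup.of s)⁻¹
        rw [mul_inv_cancel, loopClass_one, ← h3] at h5
        exact h5.symm
      have h6 : e (k * (P.gen s)⁻¹) = e k * φ (FreeGroup.of s)⁻¹ := by
        rw [map_mul, map_inv, he, map_inv]
      rw [h1, map_add, hMap_single, ih, h2, loopClass_mul φ w hw, ← h6, neg_smul, one_smul,
        neg_eq_of_add_eq_zero_right h4]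
    · have h1 : P.pchain (P.walk k ((s, true) :: L)) =
          Finsupp.single (k, s) (1 : ℤ) + P.pchain (P.walk (k * P.gen s) L) := rfl
      have h2 : (FreeGroup.mk ((s, true) :: L)) = FreeGroup.of s * FreeGroup.mk L := rfl
      rw [h1, map_add, hMap_single, ih, h2, loopClass_mul φ w hw, one_smul, map_mul, he]

end Presentation

/-- linear independence of the relators in the relation module implies asphericity -/
theorem aspherical_of_linearIndependent {G S T : Type} [Group G] (φ : FreeGroup S →* G)
    (r : T → φ.ker) (hφ : Function.Surjective φ)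
    (hr : Subgroup.normalClosure (Set.range fun t => (r t : FreeGroup S)) = φ.ker)
    (w : G → FreeGroup S) (hw : ∀ g, φ (w g) = g)
    (hli : LinearIndependent ℤ fun p : G × T =>
      Additive.ofMul (Abelianization.of (MulAut.conjNormal (w p.1) (r p.2)))) :
    ∃ P : Presentation, Nonempty (G ≃* P.Grp) ∧ P.IsAspherical := by
  classical
  let P : Presentation := ⟨S, T, fun t => (r t : FreeGroup S).toWord⟩
  have hset : (Set.range fun ρ : P.R => FreeGroup.mk (P.rel ρ)) =
      Set.range fun t => (r t : FreeGroup S) := by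
    have : (fun ρ : P.R => FreeGroup.mk (P.rel ρ)) = fun t => (r t : FreeGroup S) := by
      funext t
      exact FreeGroup.mk_toWord
    rw [this]
  have hker : Subgroup.normalClosure (Set.range fun ρ : P.R => FreeGroup.mk (P.rel ρ)) = φ.ker := by
    rw [hset, hr]
  let e : P.Grp ≃* G := (QuotientGroup.quotientMulEquivOfEq hker).trans
    (QuotientGroup.quotientKerEquivOfSurjective φ hφ)
  have he : ∀ x : FreeGroup S, e (PresentedGroup.mk _ x) = φ x := fun x => rfl
  refine ⟨P, ⟨e.symm⟩, ?_⟩
  intro z' hz'
  let z : P.Grp × T →₀ ℤ := z'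
  have hz : P.pd2 z = 0 := hz'
  change z = 0
  have hli2 : LinearIndependent ℤ fun p : P.Grp × T =>
      Additive.ofMul (Abelianization.of (MulAut.conjNormal (w (e p.1)) (r p.2))) := by
    refine hli.comp (fun p : P.Grp × T => (e p.1, p.2)) ?_
    rintro ⟨a, b⟩ ⟨a', b'⟩ hab
    rw [Prod.mk.injEq] at hab ⊢
    exact ⟨e.injective hab.1, hab.2⟩
  rw [linearIndependent_iff] at hli2
  refine hli2 z ?_
  have h1 : P.hMap φ w e.toMonoidHom (P.pd2 z) = 0 := by
    rw [hz, map_zero]
  rw [Finsupp.linearCombination_apply]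
  rw [← h1]
  unfold Presentation.pd2
  rw [map_finsuppSum]
  refine Finsupp.sum_congr fun p _ => ?_
  rw [map_zsmul]
  congr 1
  obtain ⟨k, t⟩ := p
  have h2 := P.hMap_walk φ w e.toMonoidHom hw (fun s => he (FreeGroup.of s)) (P.rel t) k
  rw [h2]
  have h4 : FreeGroup.mk (P.rel t) = (r t : FreeGroup S) := FreeGroup.mk_toWord
  have h5 : φ (r t : FreeGroup S) = 1 := (r t).2
  unfold loopClass
  rw [h4, h5, mul_one]
  have h6 := relClass_eq φ (MulAut.conjNormal (w (e k)) (r t))
  rw [← h6]
  rfl

end Vale.Agent.P173
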